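import Vale.Agent.P299.H760.Iface

/-!
# P299, package D2-LOC4: ultralimits of functions with bounded derivatives
-/

open scoped ContDiff Topology
open Filter Metric Set

noncomputable section

namespace Vale.Agent.P299.H85

variable {E : Type} [NormedAddCommGroup E] [NormedSpace ℝ E]
variable {F : Type} [NormedAddCommGroup F] [NormedSpace ℝ F]

/-- Taylor estimate of order two on a ball. -/
theorem taylor_two {f : E → F} {x₀ : E} {ρ C : ℝ}
    (hf : ∀ z ∈ ball x₀ ρ, DifferentiableAt ℝ f z)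
    (hf' : ∀ z ∈ ball x₀ ρ, DifferentiableAt ℝ (fderiv ℝ f) z)
    (hC : ∀ z ∈ ball x₀ ρ, ‖fderiv ℝ (fderiv ℝ f) z‖ ≤ C) {y z : E} (hy : y ∈ ball x₀ ρ)
    (hz : z ∈ ball x₀ ρ) : ‖f y - f z - fderiv ℝ f z (y - z)‖ ≤ C * ‖y - z‖ * ‖y - z‖ := by
  have hseg : segment ℝ z y ⊆ ball x₀ ρ := (convex_ball x₀ ρ).segment_subset hz hy
  have hC0 : 0 ≤ C := (norm_nonneg (fderiv ℝ (fderiv ℝ f) z)).trans (hC z hz)
  refine (convex_segment z y).norm_image_sub_le_of_norm_fderiv_le' (𝕜 := ℝ)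
    (fun x hx => hf x (hseg hx)) (fun x hx => ?_) (left_mem_segment ℝ z y)
    (right_mem_segment ℝ z y)
  have h1 : ‖fderiv ℝ f x - fderiv ℝ f z‖ ≤ C * ‖x - z‖ :=
    (convex_ball x₀ ρ).norm_image_sub_le_of_norm_fderiv_le (𝕜 := ℝ) hf' hC hz (hseg hx)
  have h2 : ‖x - z‖ ≤ ‖y - z‖ := by
    obtain ⟨t, ⟨ht0, ht1⟩, rfl⟩ := (segment_eq_image' ℝ z y ▸ hx)
    simp only [add_sub_cancel_left, norm_smul, Real.norm_eq_abs, abs_of_nonneg ht0]
    exact mul_le_of_le_one_left (norm_nonneg _) ht1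
  exact h1.trans (mul_le_mul_of_nonneg_left h2 hC0)

variable [FiniteDimensional ℝ E]

/-- One step: the derivative of the limit is the limit of the derivatives. -/
theorem step [FiniteDimensional ℝ F] {ι : Type} (𝒰 : Ultrafilter ι) (g : ι → E → F) (x₀ : E) (G : E → F) {ρ C : ℝ}
    (hg : ∀ᶠ j in (𝒰 : Filter ι), ∀ z ∈ ball x₀ ρ,
      ContDiffAt ℝ 2 (g j) z ∧ ∀ k ≤ 2, ‖iteratedFDeriv ℝ k (g j) z‖ ≤ C)
    (hG : ∀ z ∈ ball x₀ ρ, Tendsto (fun j => g j z) 𝒰 (𝓝 (G z))) :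
    ∀ z ∈ ball x₀ ρ, HasFDerivAt G (fderiv ℝ G z) z ∧
      Tendsto (fun j => fderiv ℝ (g j) z) 𝒰 (𝓝 (fderiv ℝ G z)) := by
  have : ProperSpace (E →L[ℝ] F) := FiniteDimensional.proper ℝ _
  intro z hz
  have hgz : ∀ᶠ j in (𝒰 : Filter ι), fderiv ℝ (g j) z ∈ closedBall (0 : E →L[ℝ] F) C := by
    filter_upwards [hg] with j hj
    rw [mem_closedBall, dist_zero_right, ← norm_iteratedFDeriv_one]
    exact (hj z hz).2 1 (by norm_num)
  obtain ⟨H, -, hH⟩ := (isCompact_closedBall (0 : E →L[ℝ] F) C).ultrafilter_le_nhds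
    (𝒰.map fun j => fderiv ℝ (g j) z) (le_principal_iff.mpr hgz)
  have hH' : Tendsto (fun j => fderiv ℝ (g j) z) 𝒰 (𝓝 H) := hH
  have hev : ∀ᶠ y in 𝓝 z, y ∈ ball x₀ ρ := isOpen_ball.mem_nhds hz
  have hbound : ∀ y ∈ ball x₀ ρ, ‖G y - G z - H (y - z)‖ ≤ C * ‖y - z‖ * ‖y - z‖ := by
    intro y hy
    have ht : Tendsto (fun j => ‖g j y - g j z - fderiv ℝ (g j) z (y - z)‖) 𝒰
        (𝓝 ‖G y - G z - H (y - z)‖) := by
      refine Tendsto.norm (((hG y hy).sub (hG z hz)).sub ?_)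
      exact ((ContinuousLinearMap.apply ℝ F (y - z)).continuous.tendsto H).comp hH'
    refine le_of_tendsto ht ?_
    filter_upwards [hg] with j hj
    refine taylor_two (fun x hx => ((hj x hx).1.differentiableAt (by norm_num)))
      (fun x hx => ?_) (fun x hx => ?_) hy hz
    · exact ((hj x hx).1.fderiv_right (m := 1) (by norm_num)).differentiableAt (by norm_num)
    · rw [← norm_iteratedFDeriv_one, norm_iteratedFDeriv_fderiv]
      exact (hj x hx).2 2 le_rfl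
  have hder : HasFDerivAt G H z := by
    rw [hasFDerivAt_iff_isLittleO]
    have hO : (fun y => G y - G z - H (y - z)) =O[𝓝 z] fun y => ‖y - z‖ * ‖y - z‖ := by
      refine Asymptotics.IsBigO.of_bound C ?_
      filter_upwards [hev] with y hy
      rw [norm_mul, norm_norm, ← mul_assoc]
      exact hbound y hy
    refine hO.trans_isLittleO ?_
    have h1 : (fun y : E => ‖y - z‖) =o[𝓝 z] fun _ => (1 : ℝ) := by
      rw [Asymptotics.isLittleO_one_iff]
      have : Tendsto (fun y : E => ‖y - z‖) (𝓝 z) (𝓝 ‖z - z‖) :=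
        (continuous_norm.comp (continuous_id.sub continuous_const)).tendsto z
      simpa using this
    have h2 : (fun y : E => ‖y - z‖) =O[𝓝 z] fun y => y - z :=
      Asymptotics.isBigO_norm_left.mpr (Asymptotics.isBigO_refl _ _)
    have h3 := h1.mul_isBigO h2.norm_right
    simpa using h3.norm_right
  rw [hder.fderiv]
  exact ⟨hder, hH'⟩

theorem contDiffOn_limit {ι : Type} (𝒰 : Ultrafilter ι) (x₀ : E) {ρ C : ℝ} (m : ℕ) :
    ∀ {F : Type} [NormedAddCommGroup F] [NormedSpace ℝ F] [FiniteDimensional ℝ F]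
      (g : ι → E → F) (G : E → F),
    (∀ᶠ j in (𝒰 : Filter ι), ∀ z ∈ ball x₀ ρ,
      ContDiffAt ℝ ((m + 2 : ℕ) : WithTop ℕ∞) (g j) z ∧ ∀ k ≤ m + 2, ‖iteratedFDeriv ℝ k (g j) z‖ ≤ C) →
    (∀ z ∈ ball x₀ ρ, Tendsto (fun j => g j z) 𝒰 (𝓝 (G z))) →
    ContDiffOn ℝ m G (ball x₀ ρ) := by
  induction m with
  | zero =>
    intro F _ _ _ g G hg hG
    have h2 := step 𝒰 g x₀ G (ρ := ρ) (C := C) (by
      filter_upwards [hg] with j hj z hz
      exact ⟨by exact_mod_cast (hj z hz).1, (hj z hz).2⟩) hG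
    rw [Nat.cast_zero, contDiffOn_zero]
    exact fun z hz => ((h2 z hz).1.continuousAt).continuousWithinAt
  | succ m ih =>
    intro F _ _ _ g G hg hG
    have h2 := step 𝒰 g x₀ G (ρ := ρ) (C := C) (by
      filter_upwards [hg] with j hj z hz
      exact ⟨(hj z hz).1.of_le (by
        have : (2 : ℕ) ≤ m + 1 + 2 := by omega
        exact_mod_cast this), fun k hk => (hj z hz).2 k (by omega)⟩) hG
    have h3 := ih (fun j => fderiv ℝ (g j)) (fderiv ℝ G) (by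
      filter_upwards [hg] with j hj z hz
      refine ⟨(hj z hz).1.fderiv_right (by
        have : m + 2 + 1 ≤ m + 1 + 2 := by omega
        exact_mod_cast this), fun k hk => ?_⟩
      rw [norm_iteratedFDeriv_fderiv]
      exact (hj z hz).2 (k + 1) (by omega)) (fun z hz => (h2 z hz).2)
    rw [Nat.cast_add, Nat.cast_one, contDiffOn_succ_iff_fderiv_of_isOpen isOpen_ball]
    refine ⟨fun z hz => ((h2 z hz).1.differentiableAt).differentiableWithinAt, ?_, h3⟩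
    intro h
    exact absurd h (by simp)

/-- **LOC4** -/
theorem ultra : H760.UltraStatement := by
  intro E _ _ _ ι 𝒰 g x₀ G hg hG
  obtain ⟨ρ₀, hρ₀, hG₀⟩ := Metric.eventually_nhds_iff_ball.mp hG
  have key : ∀ m : ℕ, ∃ ρ : ℝ, 0 < ρ ∧ ∃ C : ℝ, (∀ᶠ j in (𝒰 : Filter ι), ∀ z ∈ ball x₀ ρ,
      ContDiffAt ℝ ((m + 2 : ℕ) : WithTop ℕ∞) (g j) z ∧ ∀ k ≤ m + 2, ‖iteratedFDeriv ℝ k (g j) z‖ ≤ C) ∧
      ∀ z ∈ ball x₀ ρ, Tendsto (fun j => g j z) 𝒰 (𝓝 (G z)) := by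
    intro m
    obtain ⟨ρ, hρ, C, hC⟩ := hg (m + 2)
    refine ⟨min ρ ρ₀, lt_min hρ hρ₀, C, ?_, fun z hz =>
      hG₀ z (ball_subset_ball (min_le_right _ _) hz)⟩
    filter_upwards [hC] with j hj z hz
    have := hj z (ball_subset_ball (min_le_left _ _) hz)
    exact ⟨contDiffAt_infty.mp this.1 (m + 2), this.2⟩
  refine ⟨?_, ?_, ?_⟩
  · rw [contDiffAt_infty]
    intro m
    obtain ⟨ρ, hρ, C, h1, h2⟩ := key m
    exact (contDiffOn_limit 𝒰 x₀ m g G h1 h2).contDiffAt (isOpen_ball.mem_nhds (mem_ball_self hρ))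
  · obtain ⟨ρ, hρ, C, h1, h2⟩ := key 0
    exact (step 𝒰 g x₀ G (by
      filter_upwards [h1] with j hj z hz
      exact ⟨by exact_mod_cast (hj z hz).1, (hj z hz).2⟩) h2 x₀ (mem_ball_self hρ)).2
  · obtain ⟨ρ, hρ, C, h1, h2⟩ := key 1
    have hs := step 𝒰 g x₀ G (ρ := ρ) (C := C) (by
      filter_upwards [h1] with j hj z hz
      exact ⟨(hj z hz).1.of_le (by
        have : (2 : ℕ) ≤ 1 + 2 := by omega
        exact_mod_cast this), fun k hk => (hj z hz).2 k (by omega)⟩) h2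
    exact (step 𝒰 (fun j => fderiv ℝ (g j)) x₀ (fderiv ℝ G) (ρ := ρ) (C := C) (by
      filter_upwards [h1] with j hj z hz
      refine ⟨(hj z hz).1.fderiv_right (by
        have : 2 + 1 ≤ 1 + 2 := by omega
        exact_mod_cast this), fun k hk => ?_⟩
      rw [norm_iteratedFDeriv_fderiv]
      exact (hj z hz).2 (k + 1) (by omega)) (fun z hz => (hs z hz).2) x₀ (mem_ball_self hρ)).2

end Vale.Agent.P299.H85
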